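import Crest.Agent.X262.Sp78.Main
import Crest.Agent.X262.Sp71.Main
import Crest.Agent.X262.Gen28.Main
import Crest.Agent.X262.RR.Main

/-!
# Row 262, G4 / SP + K3 (helper78), part 4: the generic fibre is a K3 surface of Picard number one

* `k3Stmt : Alg44.K3Stmt`;
* `chi_gen` : `χ = 2` and `K ∼ 0` on the generic fibre;
* `k3Stmt2` : the same as `k3Stmt` with the irregularity hypothesis as an implication.
-/

set_option autoImplicit false

noncomputable section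

namespace Crest.Agent.X262.Sp78

open Crest.Agent.X277 Crest.Agent.X277.Lef Crest.Agent.X277.AN.G1 Crest.Agent.X277.BD
open Crest.Agent.X277.BD.Br (On oP kP)
open Crest.Agent.X262.Alg44
open Crest.Agent.X262.Top (K3 Reg1)
open Crest.Agent.X262.Surf (B2 Chi)

theorem k3Stmt : K3Stmt := Sp71.k3Stmt_of RR.rrStmt RR.serStmt fun _ _ _ _ _ _ _ _ _ _ G h hp =>
  ⟨sp G h Gen28.genSecStmt hp, sp0 G h Gen28.genSecStmt⟩

variable {F E : Type} [Field F] [Algebra ℂ F] [Algebra.EssFiniteType ℂ F] [Field E] [Algebra ℂ E]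
  [Algebra.EssFiniteType ℂ E] {R : Red F E} {P : PModel ℂ F}

theorem chi_gen (G : Pre R P) (b : B2 F) (h : G.Sm) (b' : B2 E) (hc : Chi P b 2)
    (hK : Lin (kP P b) 0) : Chi (G.gen h) b' 2 ∧
      bnum [oP (G.gen h), oP (G.gen h)] = bnum [oP P, oP P] ∧ Lin (kP (G.gen h) b') 0 := by
  obtain ⟨c, h1⟩ := RR.rrStmt E (G.gen h) b'
  obtain ⟨rfl, h2⟩ := Sp71.can_of RR.serStmt hc hK h1 (sp0 G h Gen28.genSecStmt)
  exact ⟨h1, h2⟩

theorem k3Stmt2 (G : Pre R P) (b : B2 F) (h : G.Sm) (b' : B2 E) (D : ℕ) (hp : G.Pic) (hr : G.Rig)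
    (hc : Chi P b 2) (hK : Lin (kP P b) 0)
    (hi : Chi (G.gen h) b' 2 → Lin (kP (G.gen h) b') 0 → ∀ ω, Reg1 (G.gen h) ω → ω = 0)
    (hD : ∀ M ∈ On P, ∀ k : ℤ, (∀ a ∈ On P, bnum [oP P - k • M, a] = 0) → D ≤ bnum [M, M]) :
    ∃ d : ℕ, D ≤ d ∧ Nonempty (K3 E d) :=
  k3Stmt F E R P G b h b' D hp hr hc hK
    (hi (chi_gen G b h b' hc hK).1 (chi_gen G b h b' hc hK).2.2) hD

end Crest.Agent.X262.Sp78
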