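import Crest.Agent.X262.Alg44.Defs

/-!
# Row 262, G4 / SP (helper78), part 0: the output of the specialisation step

* `SpOut G h` : every line bundle on the generic fibre specialises, with the numbers of sections;
* `Sp0 G h`   : the Hilbert functions of the two fibres agree.
-/

set_option autoImplicit false

open Filter

noncomputable section

namespace Crest.Agent.X262.Sp78

open Crest.Agent.X277 Crest.Agent.X277.Lef Crest.Agent.X277.AN.G1 Crest.Agent.X277.BD
open Crest.Agent.X277.BD.Br (On oP)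
open Crest.Agent.X262.Alg44
open Crest.Agent.X262.Surf (h0)

variable {F E : Type} [Field F] [Algebra ℂ F] [Field E] [Algebra ℂ E] {R : Red F E}
  {P : PModel ℂ F}

/-- specialisation of line bundles -/
def SpOut (G : Pre R P) (h : G.Sm) : Prop := ∀ a ∈ On (G.gen h),
  ∃ (m n : ℕ) (s : Fin (n + 1) → E), (∀ j, s j ∈ R.O) ∧ (∀ j, R.r (s j) ≠ 0) ∧
    (∀ x : Pts P, ∃ j, ∀ l, s l / s j ∈ G.Lo x) ∧ (mxf ℂ fun j => R.r (s j)) ∈ On P ∧
    ∀ᶠ d : ℕ in atTop,
      h0 (a + (m + d) • oP (G.gen h)) = h0 ((mxf ℂ fun j => R.r (s j)) + d • oP P)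

/-- the Hilbert functions agree -/
def Sp0 (G : Pre R P) (h : G.Sm) : Prop :=
  ∀ᶠ d : ℕ in atTop, h0 (d • oP (G.gen h)) = h0 (d • oP P)

end Crest.Agent.X262.Sp78
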