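import Crest.Agent.X277.BD.BrA

/-!
# Row 262, G4 / SP (helper78), part 1: a free class on a chart is an invertible module

* `exists_dual` : generators `f j` of a free class and, on every chart, a dual family;
* `mul_pow_mem` : an element of a chart ring times a high power of `y i` is a section.
-/

set_option autoImplicit false

noncomputable section

namespace Crest.Agent.X262.Sp78

open Crest.Agent.X277 Crest.Agent.X277.Lef Crest.Agent.X277.AN.G1 Crest.Agent.X277.BD
open Crest.Agent.X277.BD.Br

variable {F : Type} [Field F] [Algebra ℂ F] {P : PModel ℂ F} {a : BD ℂ F}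

/-- generators of a free class with a dual family on every chart -/
theorem exists_dual (ha : a ∈ On P) (hf : Free a) : ∃ (n : ℕ) (f : Fin n → F),
    (∀ j, f j ∈ a.Sec) ∧ ∀ i, ∃ g : Fin n → F, ∑ j, f j * g j = 1 ∧
      ∀ (k : ℕ), ∀ τ ∈ (a + k • oP P).Sec, ∀ j, τ / P.y i ^ k * g j ∈ P.A i := by
  classical
  obtain ⟨r, f, -, h1, h2⟩ := hf.exists_fam
  obtain ⟨M, hM⟩ := serre (neg_mem ha)
  replace hM := hM M le_rfl
  refine ⟨r + 1, f, h1, fun i => ?_⟩
  let N : Submodule ℂ F :=
    { carrier := {z | ∃ g : Fin (r + 1) → F,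
        (∀ j, ∀ x ∈ pat P i, ∀ h, At a x h → h * g j ∈ (lp x).O) ∧ z = ∑ j, f j * g j}
      add_mem' := by
        rintro _ _ ⟨g, h3, rfl⟩ ⟨g', h4, rfl⟩
        refine ⟨g + g', fun j x hx h hh => ?_, ?_⟩
        · rw [Pi.add_apply, mul_add]
          exact add_mem (h3 j x hx h hh) (h4 j x hx h hh)
        · simp only [Pi.add_apply, mul_add, Finset.sum_add_distrib]
      zero_mem' := ⟨0, fun j x _ h _ => by simp, by simp⟩
      smul_mem' := by
        rintro c _ ⟨g, h3, rfl⟩
        refine ⟨c • g, fun j x hx h hh => ?_, ?_⟩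
        · rw [Pi.smul_apply, mul_smul_comm]
          exact Subalgebra.smul_mem _ (h3 j x hx h hh) c
        · simp only [Pi.smul_apply, mul_smul_comm, Finset.smul_sum] }
  have h3 : (1 : F) ∈ N := by
    refine mem_of_local (i := i) N ?_ fun x hx => ?_
    · rintro c hc _ ⟨g, h3, rfl⟩
      refine ⟨fun j => c * g j, fun j x hx h hh => ?_, ?_⟩
      · rw [mul_left_comm]
        exact mul_mem (A_le hx hc) (h3 j x hx h hh)
      · simp only [Finset.mul_sum, mul_left_comm]
    · obtain ⟨h, hh⟩ := ha x
      obtain ⟨j, hj⟩ := hh.exists_fam h1 h2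
      obtain ⟨s, hs, hs'⟩ := (hh.neg.add ((at_y hx).nsmul M)).exists_sec hM
      have e : a + (-a + M • oP P) = M • oP P := by abel
      refine ⟨f j * s / P.y i ^ M, mem_A_iff.2 fun x' hx' =>
        ((at_y hx').nsmul M).div_mem (e ▸ mul_mem_Sec (h1 j) hs),
        (e ▸ hj.add hs').ev_div_ne ((at_y hx).nsmul M), Pi.single j (s / P.y i ^ M),
        fun l x' hx' h' hh' => ?_, ?_⟩
      · by_cases hl : l = j
        · subst hl
          have := (hh'.neg.add ((at_y hx').nsmul M)).div_mem hs
          rw [Pi.single_eq_same]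
          convert this using 1
          have := hh'.ne
          field_simp
        · rw [Pi.single_eq_of_ne hl, mul_zero]
          exact zero_mem _
      · rw [Finset.sum_eq_single j (fun l _ hl => by rw [Pi.single_eq_of_ne hl, mul_zero])
          (by simp), Pi.single_eq_same, mul_one, mul_div_assoc]
  obtain ⟨g, h4, h5⟩ := h3
  refine ⟨g, h5.symm, fun k τ hτ j => mem_A_iff.2 fun x hx => ?_⟩
  obtain ⟨h, hh⟩ := ha x
  have := mul_mem ((hh.add ((at_y hx).nsmul k)).div_mem hτ) (h4 j x hx h hh)
  convert this using 1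
  have := hh.ne
  field_simp

/-- an element of a chart ring times a high power of the coordinate is a section -/
theorem mul_pow_mem {i : Fin (P.N + 1)} {c : F} (hc : c ∈ P.A i) :
    ∃ N0 : ℕ, ∀ N, N0 ≤ N → c * P.y i ^ N ∈ (N • oP P).Sec := by
  simpa using exists_tw_mem (a := 0) (i := i) (f := c) fun V hV => by
    simpa using RZ.le_one_iff.2 (hV c hc)

end Crest.Agent.X262.Sp78
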