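import Crest.Agent.X262.Alg44.Defs

/-!
# Row 262, G4 / SP (helper78), part 2: reductions and the local rings of the total space

* `nrm`, `li`, `finrank_le`, `le_finrank` : linear algebra of a reduction;
* `Loc_eq`, `mem_Lo` : independence of the chart; `LK` : the ring `Lk x` as a subalgebra;
* `A_le_LK`, `mem_Lo_of`, `opn`, `den`.
-/

set_option autoImplicit false

open Filter Topology Module

noncomputable section

namespace Crest.Agent.X262.Sp78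

open Crest.Agent.X277 Crest.Agent.X277.Lef Crest.Agent.X277.AN.G1 Crest.Agent.X277.BD
open Crest.Agent.X262.Alg44

variable {F E : Type} [Field F] [Algebra ℂ F] [Field E] [Algebra ℂ E] (R : Red F E)

/-! ### linear algebra -/

theorem nrm {u : E} (hu : u ≠ 0) : ∃ c : ℂ, c ≠ 0 ∧ c • u ∈ R.O ∧ R.r (c • u) ≠ 0 := by
  obtain ⟨n, b, h1, h2, h3⟩ := R.ge (Submodule.span ℂ {u}) inferInstance
  rcases n with _ | n
  · rw [Set.range_eq_empty, Submodule.span_empty, eq_comm, Submodule.span_singleton_eq_bot] at h2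
    exact absurd h2 hu
  · obtain ⟨c, hc⟩ := Submodule.mem_span_singleton.1
      (h2 ▸ Submodule.subset_span (Set.mem_range_self 0) : b 0 ∈ Submodule.span ℂ {u})
    have h4 := h3.ne_zero 0
    refine ⟨c, fun h => h4 ?_, hc ▸ h1 0, hc ▸ h4⟩
    rw [← hc, h, zero_smul, R.r_zero]

/-- the integral constants form a valuation ring -/
def vo : ValuationSubring ℂ := { R.o with mem_or_inv_mem' := R.val }

theorem r_smul {c : ℂ} (hc : c ∈ R.o) {u : E} (hu : u ∈ R.O) :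
    c • u ∈ R.O ∧ R.r (c • u) = R.z c • R.r u := by
  rw [Algebra.smul_def, Algebra.smul_def, ← R.r_cst hc]
  exact ⟨mul_mem hc hu, R.r_mul hc hu⟩

theorem r_sum {ι : Type*} (s : Finset ι) {u : ι → E} (hu : ∀ i, u i ∈ R.O) :
    R.r (∑ i ∈ s, u i) = ∑ i ∈ s, R.r (u i) := by
  have := map_sum R.ρ (fun i => ⟨u i, hu i⟩) s
  rwa [R.ρ_apply, AddSubmonoidClass.coe_finsetSum] at this

theorem r_prod {ι : Type*} (s : Finset ι) {u : ι → E} (hu : ∀ i, u i ∈ R.O) :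
    R.r (∏ i ∈ s, u i) = ∏ i ∈ s, R.r (u i) := by
  have := map_prod R.ρ (fun i => ⟨u i, hu i⟩) s
  rwa [R.ρ_apply, SubmonoidClass.coe_finsetProd] at this

theorem r_pow {u : E} (hu : u ∈ R.O) (k : ℕ) : R.r (u ^ k) = R.r u ^ k :=
  map_pow R.ρ ⟨u, hu⟩ k

theorem z_one : R.z 1 = 1 := by
  have := R.r_cst (c := 1) (by simp)
  rw [map_one, R.r_one, ← map_one (algebraMap ℂ F)] at this
  exact ((algebraMap ℂ F).injective this).symm

/-- elements with independent reductions are independent -/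
theorem li {ι : Type*} {u : ι → E} (hu : ∀ i, u i ∈ R.O)
    (h : LinearIndependent ℂ fun i => R.r (u i)) : LinearIndependent ℂ u := by
  rw [linearIndependent_iff'] at h ⊢
  intro s c h0 i hi
  obtain ⟨j, hj, h1⟩ := s.exists_max_image (fun i => (vo R).valuation (c i)) ⟨i, hi⟩
  by_cases hc : c j = 0
  · simpa [hc] using h1 i hi
  classical
  have h2 : ∀ l, (if l ∈ s then c l / c j else 0) ∈ R.o := fun l => by
    split_ifs with hl
    · exact ((vo R).valuation_le_one_iff _).1 (by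
        rw [map_div₀]
        exact div_le_one_of_le₀ (h1 l hl) zero_le)
    · exact zero_mem _
  have h3 : ∑ l ∈ s, (if l ∈ s then c l / c j else 0) • u l = 0 := by
    rw [Finset.sum_congr rfl fun l hl => by rw [if_pos hl, div_eq_inv_mul, mul_smul],
      ← Finset.smul_sum, h0, smul_zero]
  have h4 := congrArg R.r h3
  rw [r_sum R s fun l => (r_smul R (h2 l) (hu l)).1, R.r_zero,
    Finset.sum_congr rfl fun l _ => (r_smul R (h2 l) (hu l)).2] at h4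
  have h5 := h s _ h4 j hj
  simp [hj, div_self hc, z_one] at h5

theorem finrank_le {W : Submodule ℂ E} {W₀ : Submodule ℂ F} [Module.Finite ℂ W]
    [Module.Finite ℂ W₀] (h : ∀ u ∈ W, u ∈ R.O → R.r u ∈ W₀) : finrank ℂ W ≤ finrank ℂ W₀ := by
  obtain ⟨n, b, h1, h2, h3⟩ := R.ge W inferInstance
  have h4 : ∀ i, R.r (b i) ∈ W₀ := fun i =>
    h _ (h2 ▸ Submodule.subset_span (Set.mem_range_self i)) (h1 i)
  have h5 : LinearIndependent ℂ fun i => (⟨_, h4 i⟩ : W₀) :=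
    LinearIndependent.of_comp W₀.subtype h3
  rw [← h2]
  exact (finrank_range_le_card b).trans h5.fintype_card_le_finrank

theorem le_finrank {W : Submodule ℂ E} {W₀ : Submodule ℂ F} [Module.Finite ℂ W]
    (h : W₀ ≤ Submodule.span ℂ (R.r '' {u | u ∈ W ∧ u ∈ R.O})) : finrank ℂ W₀ ≤ finrank ℂ W := by
  obtain ⟨b, h1, h2, h3⟩ := exists_linearIndependent ℂ (R.r '' {u | u ∈ W ∧ u ∈ R.O})
  choose u h4 h5 using fun i : b => h1 i.2
  have h7 : LinearIndependent ℂ u := li R (fun i => (h4 i).2) (by simpa only [h5] using h3)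
  have h6 : LinearIndependent ℂ fun i => (⟨_, (h4 i).1⟩ : W) :=
    LinearIndependent.of_comp W.subtype h7
  refine Cardinal.toNat_le_toNat ?_ (rank_lt_aleph0 ℂ W)
  rw [← h2] at h
  exact (Submodule.rank_mono h).trans ((rank_span_set h3).le.trans h6.cardinal_le_rank)

/-! ### local rings -/

variable {R} {P : PModel ℂ F} (G : Pre R P) {i i' : Fin (P.N + 1)} {x : Pts P} {f : E}

theorem ne_of_ev {g : F} (h : ev g x ≠ 0) : g ≠ 0 := fun h0 => h (by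
  rw [h0, ← map_zero (algebraMap ℂ F)]
  exact (lp x).v_alg 0)

theorem Ao_le (hx : x ∈ pat P i) : R.Ao G.y i ≤ G.Loc i x hx := fun f hf =>
  ⟨f, hf, 1, one_mem _, by rw [R.r_one]; simp [ev, LP.v_one], mul_one _⟩

theorem Ao_le_chart (hf : f ∈ R.Ao G.y i) : f ∈ chart ℂ G.y i := by
  refine (Subring.closure_le (t := (chart ℂ G.y i).toSubring)).2 ?_ hf
  rintro _ (⟨c, -, rfl⟩ | ⟨j, rfl⟩)
  · exact algebraMap_mem (chart ℂ G.y i) c
  · exact div_mem_chart G.y i j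

theorem y_mem_Ao (i j : Fin (P.N + 1)) : G.y j / G.y i ∈ R.Ao G.y i :=
  Subring.subset_closure (Or.inr ⟨j, rfl⟩)

theorem o_mem_Ao (i : Fin (P.N + 1)) {c : ℂ} (hc : c ∈ R.o) : algebraMap ℂ E c ∈ R.Ao G.y i :=
  Subring.subset_closure (Or.inl ⟨c, hc, rfl⟩)

theorem Loc_spec {hx : x ∈ pat P i} (hf : f ∈ G.Loc i x hx) : f ∈ R.O ∧ R.r f ∈ (lp x).O := by
  obtain ⟨a, ha, c, hc, h0, h1⟩ := hf
  have h2 := ne_of_ev h0
  have h3 : f ∈ R.O := by
    rw [eq_div_of_mul_eq (Red.ne_zero h2) h1]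
    exact Red.div_mem (Pre.Ao_spec ha).1 (Pre.Ao_spec hc).1 h2
  exact ⟨h3, (mem_lp_iff hx).2 ⟨_, (Pre.Ao_spec ha).2, _, (Pre.Ao_spec hc).2, h0, by
    rw [← R.r_mul h3 (Pre.Ao_spec hc).1, h1]⟩⟩

theorem Loc_inv {hx : x ∈ pat P i} (hf : f ∈ G.Loc i x hx) (h : ev (R.r f) x ≠ 0) :
    f⁻¹ ∈ G.Loc i x hx := by
  have h2 := Loc_spec G hf
  obtain ⟨a, ha, c, hc, h0, h1⟩ := hf
  refine ⟨c, hc, a, ha, ?_, by
    rw [← h1, ← mul_assoc, inv_mul_cancel₀ (Red.ne_zero (ne_of_ev h)), one_mul]⟩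
  rw [← h1, R.r_mul h2.1 (Pre.Ao_spec hc).1, ev,
    (lp x).v_mul h2.2 (A_le hx (Pre.Ao_spec hc).2)]
  exact mul_ne_zero h h0

theorem Loc_le (hx : x ∈ pat P i) (hx' : x ∈ pat P i') : G.Loc i x hx ≤ G.Loc i' x hx' := by
  have h1 : R.Ao G.y i ≤ G.Loc i' x hx' := by
    refine Subring.closure_le.2 ?_
    rintro _ (⟨c, hc, rfl⟩ | ⟨j, rfl⟩)
    · exact Ao_le G hx' (o_mem_Ao G i' hc)
    · have h2 := mul_mem (Ao_le G hx' (y_mem_Ao G i' j)) (Loc_inv G (Ao_le G hx' (y_mem_Ao G i' i))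
        (by rw [G.r_div]; exact (mem_pat_iff hx').1 hx))
      rwa [← div_eq_mul_inv, div_div_div_cancel_right₀ (G.y_ne i')] at h2
  rintro f ⟨a, ha, c, hc, h0, h2⟩
  rw [eq_div_of_mul_eq (Red.ne_zero (ne_of_ev h0)) h2, div_eq_mul_inv]
  exact mul_mem (h1 ha) (Loc_inv G (h1 hc) h0)

theorem Lo_eq (hx : x ∈ pat P i) : G.Lo x = G.Loc i x hx :=
  le_antisymm (Loc_le G _ hx) (Loc_le G hx _)

theorem mem_Lo (hx : x ∈ pat P i) : f ∈ G.Lo x ↔
    ∃ a ∈ R.Ao G.y i, ∃ c ∈ R.Ao G.y i, ev (R.r c) x ≠ 0 ∧ f * c = a := by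
  rw [Lo_eq G hx]
  rfl

theorem Lo_spec (hf : f ∈ G.Lo x) : f ∈ R.O ∧ R.r f ∈ (lp x).O := Loc_spec G hf

theorem smul_mem_Lo {c : ℂ} (hc : c ∈ R.o) (hf : f ∈ G.Lo x) : c • f ∈ G.Lo x := by
  rw [Algebra.smul_def]
  exact mul_mem (Ao_le G _ (o_mem_Ao G _ hc)) hf

/-- the ring `Lk x` -/
def LK (x : Pts P) : Subalgebra ℂ E where
  carrier := G.Lk x
  mul_mem' := by
    rintro f g ⟨c, h1, h2⟩ ⟨d, h3, h4⟩
    exact ⟨c * d, mul_ne_zero h1 h3, by rw [← smul_mul_smul_comm]; exact mul_mem h2 h4⟩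
  add_mem' := by
    rintro f g ⟨c, h1, h2⟩ ⟨d, h3, h4⟩
    rcases R.val (c / d) with h | h
    · have := smul_mem_Lo G h h4
      rw [smul_smul, div_mul_cancel₀ _ h3] at this
      exact ⟨c, h1, by rw [smul_add]; exact add_mem h2 this⟩
    · have := smul_mem_Lo G h h2
      rw [smul_smul, inv_div, div_mul_cancel₀ _ h1] at this
      exact ⟨d, h3, by rw [smul_add]; exact add_mem this h4⟩
  algebraMap_mem' c := by
    by_cases h : c = 0
    · exact ⟨1, one_ne_zero, by rw [h, map_zero, smul_zero]; exact zero_mem _⟩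
    · exact ⟨c⁻¹, inv_ne_zero h, by
        rw [Algebra.smul_def, ← map_mul, inv_mul_cancel₀ h, map_one]; exact one_mem _⟩

theorem mem_LK : f ∈ LK G x ↔ f ∈ G.Lk x := Iff.rfl

theorem LK_of_Lo (hf : f ∈ G.Lo x) : f ∈ LK G x := ⟨1, one_ne_zero, by rwa [one_smul]⟩

theorem A_le_LK (hx : x ∈ pat P i) : chart ℂ G.y i ≤ LK G x := by
  refine Algebra.adjoin_le ?_
  rintro _ ⟨j, rfl⟩
  exact LK_of_Lo G (Lo_eq G hx ▸ Ao_le G hx (y_mem_Ao G i j))

theorem den (hx : x ∈ pat P i) (hf : f ∈ LK G x) :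
    ∃ c ∈ R.Ao G.y i, ev (R.r c) x ≠ 0 ∧ f * c ∈ chart ℂ G.y i := by
  obtain ⟨d, h1, h2⟩ := hf
  obtain ⟨a, ha, c, hc, h0, h3⟩ := (mem_Lo G hx).1 h2
  refine ⟨c, hc, h0, ?_⟩
  have := Subalgebra.smul_mem _ (Ao_le_chart G ha) d⁻¹
  rwa [← h3, smul_mul_assoc, smul_smul, inv_mul_cancel₀ h1, one_smul] at this

theorem inv_mem_LK (hx : x ∈ pat P i) {c : E} (hc : c ∈ R.Ao G.y i) (h0 : ev (R.r c) x ≠ 0) :
    c⁻¹ ∈ LK G x := LK_of_Lo G (Lo_eq G hx ▸ Loc_inv G (Ao_le G hx hc) h0)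

theorem mem_Lo_of (hf : f ∈ LK G x) (h : f ∈ R.O) : f ∈ G.Lo x := by
  obtain ⟨i, hx⟩ := exists_pat x
  obtain ⟨c, hc, h0, h1⟩ := den G hx hf
  exact (mem_Lo G hx).2 ⟨_, G.sat i _ h1 (mul_mem h (Pre.Ao_spec hc).1), c, hc, h0, rfl⟩

theorem opn (hf : f ∈ LK G x) : ∀ᶠ x' in 𝓝 x, f ∈ LK G x' := by
  obtain ⟨i, hx⟩ := exists_pat x
  obtain ⟨c, hc, h0, h1⟩ := den G hx hf
  filter_upwards [(isOpen_pat P i).mem_nhds hx, (isOpen_ev_ne (R.r c)).mem_nhds h0] with x' h2 h3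
  have := mul_mem (A_le_LK G h2 h1) (inv_mem_LK G h2 hc h3)
  rwa [mul_inv_cancel_right₀ (Red.ne_zero (ne_of_ev h0))] at this

/-- common denominators -/
theorem exists_den (hx : x ∈ pat P i) {n : ℕ} {ρ : Fin n → E} (h : ∀ j, ρ j ∈ LK G x) :
    ∃ c : E, c ≠ 0 ∧ c⁻¹ ∈ LK G x ∧ ∀ j, ρ j * c ∈ chart ℂ G.y i := by
  classical
  choose c h1 h2 h3 using fun j => den G hx (h j)
  refine ⟨∏ j, c j, Finset.prod_ne_zero_iff.2 fun j _ => Red.ne_zero (ne_of_ev (h2 j)), ?_,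
    fun j => ?_⟩
  · rw [← Finset.prod_inv_distrib]
    exact prod_mem fun j _ => inv_mem_LK G hx (h1 j) (h2 j)
  · rw [← Finset.mul_prod_erase _ _ (Finset.mem_univ j), ← mul_assoc]
    exact mul_mem (h3 j) (prod_mem fun l _ => Ao_le_chart G (h1 l))

end Crest.Agent.X262.Sp78
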