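import Crest.Agent.X262.Sp78.Defs
import Crest.Agent.X262.Sp78.Dual
import Crest.Agent.X262.Sp78.Loc
import Crest.Agent.X277.BD.Mdl

/-!
# Row 262, G4 / SP (helper78), part 3: specialisation of line bundles

* `Gn G h a m σ` : the sections `σ` of `a + m H` generate along the special fibre; `exists_gn`;
* `Gn.h0_eq`     : comparison of the numbers of sections;
* `sp : SpOut G h`, `sp0 : Sp0 G h`.
-/

set_option autoImplicit false

open Filter Topology Module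

noncomputable section

namespace Crest.Agent.X262.Sp78

open Crest.Agent.X277 Crest.Agent.X277.Lef Crest.Agent.X277.AN.G1 Crest.Agent.X277.BD
open Crest.Agent.X277.BD.Br
open Crest.Agent.X262.Alg44
open Crest.Agent.X262.Surf (h0)

variable {F E : Type} [Field F] [Algebra ℂ F] [Field E] [Algebra ℂ E] {R : Red F E}
  {P : PModel ℂ F} (G : Pre R P) (h : G.Sm) {a : BD ℂ E} {m n : ℕ} {σ : Fin (n + 1) → E}

/-- sections of `a + m H` which generate along the special fibre -/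
structure Gn (a : BD ℂ E) (m : ℕ) {n : ℕ} (σ : Fin (n + 1) → E) : Prop where
  mem : ∀ l, σ l ∈ R.O
  ne : ∀ l, R.r (σ l) ≠ 0
  sec : ∀ l, σ l ∈ (a + m • oP (G.gen h)).Sec
  gen : ∀ x : Pts P, ∃ i k, x ∈ pat P i ∧ ∀ d : ℕ, ∀ τ ∈ (a + (m + d) • oP (G.gen h)).Sec,
    τ / (σ k * G.y i ^ d) ∈ LK G x

theorem exists_gn (hp : G.Pic) (ha : a ∈ On (G.gen h)) (hf : Free a) :
    ∃ (m n : ℕ) (σ : Fin (n + 1) → E), Gn G h a m σ := by
  classical
  obtain ⟨n, f, h1, h2⟩ := exists_dual ha hf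
  choose g h2 h3 using h2
  have h4 : ∀ x : Pts P, ∃ (i : Fin (P.N + 1)) (φ : E) (m0 : ℕ), φ ≠ 0 ∧
      (∀ m, m0 ≤ m → φ * G.y i ^ m ∈ (a + m • oP (G.gen h)).Sec) ∧
      {x' | x' ∈ pat P i ∧ ∀ j, f j / φ ∈ LK G x'} ∈ 𝓝 x := by
    intro x
    obtain ⟨i, hx⟩ := exists_pat x
    obtain ⟨φ, h0, h5, h6⟩ := hp x n n f (g i) (fun j l => if j = l then 1 else 0)
      (fun j l => A_le_LK G hx (by simpa using h3 i 0 (f j) (by simpa using h1 j) l))
      (fun j l => by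
        split_ifs
        · exact one_mem (LK G x)
        · exact zero_mem (LK G x)) (by simpa using h2 i)
    obtain ⟨c, h8, h9, h10⟩ := exists_den G hx h6
    choose N hN using fun j => mul_pow_mem (P := G.gen h) (i := i) (h10 j)
    refine ⟨i, φ * c, Finset.univ.sup N, mul_ne_zero h0 h8, fun m hm => ?_, ?_⟩
    · have e : φ * c * G.y i ^ m = ∑ j, f j * (φ * g i j * c * G.y i ^ m) := by
        rw [← mul_one (φ * c * G.y i ^ m), ← h2 i, Finset.mul_sum]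
        exact Finset.sum_congr rfl fun j _ => by ring
      rw [e]
      exact sum_mem fun j _ => mul_mem_Sec (h1 j)
        (hN j m ((Finset.le_sup (Finset.mem_univ j)).trans hm))
    · refine Eventually.and ((isOpen_pat P i).mem_nhds hx) (eventually_all.2 fun j => opn G ?_)
      rw [← div_div, div_eq_mul_inv]
      exact mul_mem (s := LK G x) (h5 j) h9
  choose i φ m0 h4 h5 h6 using h4
  obtain ⟨t, ht⟩ := CompactSpace.elim_nhds_subcover _ h6
  have h7 : ∀ x : Pts P, ∃ p ∈ t, x ∈ pat P (i p) ∧ ∀ j, f j / φ p ∈ LK G x := fun x => by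
    obtain ⟨p, h7, h8⟩ := Set.mem_iUnion₂.1 (ht.ge (Set.mem_univ x))
    exact ⟨p, h7, h8⟩
  obtain ⟨k, hk⟩ : ∃ k, t.card = k + 1 := Nat.exists_eq_succ_of_ne_zero
    (Finset.card_ne_zero.2 ((h7 (Classical.arbitrary _)).imp fun _ h => h.1))
  let e : Fin (k + 1) ≃ t := (t.equivFinOfCardEq hk).symm
  choose c h8 h9 h10 using fun p =>
    nrm R (mul_ne_zero (h4 p) (pow_ne_zero (t.sup m0) (G.y_ne (i p))))
  refine ⟨t.sup m0, k, fun l => c (e l) • (φ (e l) * G.y (i (e l)) ^ t.sup m0), fun l => h9 _,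
    fun l => h10 _, fun l => Submodule.smul_mem _ _ (h5 _ _ (Finset.le_sup (e l).2)), fun x => ?_⟩
  obtain ⟨p, hp, hx, h11⟩ := h7 x
  refine ⟨i p, e.symm ⟨p, hp⟩, hx, fun d τ hτ => ?_⟩
  have e1 : τ / (c p • (φ p * G.y (i p) ^ t.sup m0) * G.y (i p) ^ d) = (c p)⁻¹ •
      ∑ j, τ / G.y (i p) ^ (t.sup m0 + d) * g (i p) j * (f j / φ p) := by
    have e2 : ∑ j, τ / G.y (i p) ^ (t.sup m0 + d) * g (i p) j * (f j / φ p) =
        τ / G.y (i p) ^ (t.sup m0 + d) / φ p * ∑ j, f j * g (i p) j := by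
      rw [Finset.mul_sum]
      exact Finset.sum_congr rfl fun j _ => by ring
    rw [e2, h2, Algebra.smul_def, Algebra.smul_def, map_inv₀, pow_add]
    ring
  simp only [Equiv.apply_symm_apply]
  rw [e1]
  exact Subalgebra.smul_mem _
    (sum_mem fun j _ => mul_mem (A_le_LK G hx (h3 (i p) _ τ hτ j)) (h11 j)) _

variable {G h}

namespace Gn

variable (H : Gn G h a m σ)
include H

theorem red (x : Pts P) : ∃ i k, x ∈ pat P i ∧ (∀ l, σ l / σ k ∈ G.Lo x) ∧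
    ∀ d : ℕ, ∀ τ ∈ (a + (m + d) • oP (G.gen h)).Sec, τ ∈ R.O →
      R.r τ / (R.r (σ k) * P.y i ^ d) ∈ (lp x).O := by
  obtain ⟨i, k, hx, h1⟩ := H.gen x
  refine ⟨i, k, hx, fun l => mem_Lo_of G (by simpa using h1 0 _ (H.sec l))
    (Red.div_mem (H.mem l) (H.mem k) (H.ne k)), fun d τ hτ h2 => ?_⟩
  have h3 : R.r (σ k * G.y i ^ d) = R.r (σ k) * P.y i ^ d := by
    rw [R.r_mul (H.mem k) (pow_mem (G.y_mem i) d), r_pow R (G.y_mem i), G.y_r]
  have h4 : R.r (σ k * G.y i ^ d) ≠ 0 := h3 ▸ mul_ne_zero (H.ne k) (pow_ne_zero _ (P.y_ne i))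
  have h5 := mul_mem (H.mem k) (pow_mem (G.y_mem i) d)
  rw [← h3, ← Red.r_div h2 h5 h4]
  exact (Lo_spec G (mem_Lo_of G (h1 d τ hτ) (Red.div_mem h2 h5 h4))).2

theorem at_red {x : Pts P} {k : Fin (n + 1)} (hk : ∀ l, σ l / σ k ∈ G.Lo x) :
    At (mxf ℂ fun j => R.r (σ j)) x (R.r (σ k)) :=
  at_mxf (s := fun j => R.r (σ j)) (H.ne k) fun l => by
    rw [← Red.r_div (H.mem l) (H.mem k) (H.ne k)]
    exact (Lo_spec G (hk l)).2

theorem on : (mxf ℂ fun j => R.r (σ j)) ∈ On P := fun x => by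
  obtain ⟨_, k, -, h1, -⟩ := H.red x
  exact ⟨_, H.at_red h1⟩

theorem red_mem {d : ℕ} {τ : E} (hτ : τ ∈ (a + (m + d) • oP (G.gen h)).Sec) (h2 : τ ∈ R.O) :
    R.r τ ∈ ((mxf ℂ fun j => R.r (σ j)) + d • oP P).Sec := mem_Sec_of fun x => by
  obtain ⟨i, k, hx, h1, h3⟩ := H.red x
  exact ⟨_, (H.at_red h1).add ((at_y hx).nsmul d), h3 d τ hτ h2⟩

theorem mul_mem_span (l : Fin (n + 1)) {d : ℕ} {p : MvPolynomial (Fin (P.N + 1)) ℂ}
    (hp : p.IsHomogeneous d) : R.r (σ l) * MvPolynomial.aeval P.y p ∈ Submodule.span ℂ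
      (R.r '' {u | u ∈ (a + (m + d) • oP (G.gen h)).Sec ∧ u ∈ R.O}) := by
  rw [MvPolynomial.aeval_def, MvPolynomial.eval₂_eq', Finset.mul_sum]
  refine sum_mem fun α hα => ?_
  rw [mul_left_comm, ← Algebra.smul_def]
  have h1 : ∀ i, G.y i ^ α i ∈ R.O := fun i => pow_mem (G.y_mem i) _
  refine Submodule.smul_mem _ _ (Submodule.subset_span ⟨σ l * ∏ i, G.y i ^ α i, ⟨?_,
    mul_mem (H.mem l) (prod_mem fun i _ => h1 i)⟩, ?_⟩)
  · have h2 : ∑ i, α i = d := by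
      rw [← Finsupp.degree_eq_sum, Finsupp.degree_eq_weight_one]
      exact hp (MvPolynomial.mem_support_iff.1 hα)
    have h3 := prod_mem_Sec Finset.univ (a := fun i => α i • oP (G.gen h))
      (g := fun i => G.y i ^ α i) fun i _ => pow_mem_Sec (y_mem_Sec (P := G.gen h) i) _
    rw [← Finset.sum_smul, h2] at h3
    rw [add_smul, ← add_assoc]
    exact mul_mem_Sec (H.sec l) h3
  · rw [R.r_mul (H.mem l) (prod_mem fun i _ => h1 i), r_prod R _ h1]
    simp only [r_pow R (G.y_mem _), G.y_r]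

theorem h0_eq [Algebra.EssFiniteType ℂ F] [Algebra.EssFiniteType ℂ E] (hG : GenSecStmt) :
    ∀ᶠ d : ℕ in atTop,
      h0 (a + (m + d) • oP (G.gen h)) = h0 ((mxf ℂ fun j => R.r (σ j)) + d • oP P) := by
  obtain ⟨M, hM⟩ := hG F P _ (fun j => R.r (σ j)) ⟨0, H.ne 0⟩ H.on
  filter_upwards [eventually_ge_atTop M] with d hd
  unfold h0
  congr 1
  refine le_antisymm (finrank_le R fun τ h1 h2 => H.red_mem h1 h2) (le_finrank R fun f hf => ?_)
  obtain ⟨p, h1, rfl⟩ := hM d hd f hf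
  exact sum_mem fun l _ => H.mul_mem_span l (h1 l)

end Gn

variable (G h) [Algebra.EssFiniteType ℂ F] [Algebra.EssFiniteType ℂ E]

/-- **specialisation of line bundles** -/
theorem sp (hG : GenSecStmt) (hp : G.Pic) : SpOut G h := by
  intro a ha
  obtain ⟨b, hb, N, hf, rfl⟩ := exists_sub_On ha
  obtain ⟨m, n, σ, H⟩ := exists_gn G h hp hb hf
  refine ⟨N + m, n, σ, H.mem, H.ne, fun x => ?_, H.on, (H.h0_eq hG).mono fun d hd => ?_⟩
  · obtain ⟨_, k, -, h1, -⟩ := H.red x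
    exact ⟨k, h1⟩
  · rw [← hd, add_assoc N, add_smul N, ← add_assoc, sub_add_cancel]

/-- the Hilbert functions of the two fibres agree -/
theorem sp0 (hG : GenSecStmt) : Sp0 G h := by
  have H : Gn G h 0 0 fun _ : Fin (0 + 1) => (1 : E) :=
    ⟨fun _ => one_mem _, fun _ => R.r_one ▸ one_ne_zero, fun _ => by simpa using one_mem_Sec,
      fun x => by
        obtain ⟨i, hx⟩ := exists_pat x
        refine ⟨i, 0, hx, fun d τ hτ => A_le_LK G hx ?_⟩
        rw [zero_add, zero_add] at hτ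
        rw [one_mul]
        exact (mem_A_iff (P := G.gen h)).2 fun x' hx' => ((at_y hx').nsmul d).div_mem hτ⟩
  have e : (0 : BD ℂ F) = mxf ℂ fun _ : Fin (0 + 1) => R.r 1 :=
    eq_mxf (fun _ => R.r_one ▸ one_mem_Sec) fun V => ⟨0, by simp [R.r_one]⟩
  refine (H.h0_eq hG).mono fun d hd => ?_
  rwa [← e, zero_add, zero_add, zero_add] at hd

end Crest.Agent.X262.Sp78
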